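import Mathlib
import Vale.Agent.N150L.Br
import Vale.Agent.Q150.SK

open Filter Set Real

namespace Vale.Agent.Results.P150.AllBetaCutoff

open Vale.Agent.N150L

/-- Zero-field SK model: `heat β g` is the heat-bath generator `∑ i, (Q i - I)`, `ker L t` is
`exp (t L)`, `tmix β g L ε` the `ε`-mixing time from the worst start, `gap L` the least nonzero
point of the spectrum of `-L`.
(0) The gap and the mixing times are attained.
(1) The mixing time is `O (log n)` exactly when `β < 1`.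
(2) The orders of the mixing time and of the inverse gap for `β < 1`, `β = 1`, `β > 1`.
(3) Cutoff for `β ≤ 0.39`. -/
theorem result :
    (∀ (n : ℕ) (β : ℝ) (g : Dis n), 0 < n →
      IsLeast (spec (heat β g)) (gap (heat β g)) ∧ 0 < gap (heat β g) ∧
      ∀ t, 0 ≤ t → Stoch (ker (heat β g) t) ∧
        ∀ ε, 0 < ε → (tv β g (ker (heat β g) t) ≤ ε ↔ tmix β g (heat β g) ε ≤ t)) ∧
    ∀ β : ℝ, 0 ≤ β →
      ((∃ C : ℝ, WHP fun n => {g | tmix β g (heat β g) (1 / 4) ≤ C * log n}) ↔ β < 1) ∧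
      (β < 1 → ∃ c C : ℝ, 0 < c ∧ WHP fun n => {g |
        tmix β g (heat β g) (1 / 4) ∈ Icc (c * log n) (C * log n) ∧
        1 / gap (heat β g) ∈ Icc c C}) ∧
      (β = 1 → ∃ C : ℝ, 0 < C ∧ ∀ η : ℝ, 0 < η → WHP fun n => {g |
        tmix β g (heat β g) (1 / 4)
          ∈ Icc ((n : ℝ) ^ (2 / 3 : ℝ) / (C * log n ^ 4)) ((n : ℝ) ^ (2 / 3 + η)) ∧
        1 / gap (heat β g)
          ∈ Icc ((n : ℝ) ^ (2 / 3 : ℝ) / (C * log n ^ 4)) ((n : ℝ) ^ (2 / 3 + η))}) ∧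
      (1 < β → ∃ c C : ℝ, 0 < c ∧ WHP fun n => {g |
        tmix β g (heat β g) (1 / 4) ∈ Icc (exp (c * n)) (exp (C * n)) ∧
        1 / gap (heat β g) ∈ Icc (exp (c * n)) (exp (C * n))}) ∧
      (β ≤ 39 / 100 → ∀ ε η : ℝ, 0 < ε → ε < 1 → 0 < η → WHP fun _ => {g |
        |tmix β g (heat β g) ε / tmix β g (heat β g) (1 / 4) - 1| ≤ η}) := by
  refine ⟨fun n β g hn => ?_, fun β h0 => ?_⟩
  · obtain ⟨a1, -, -, a2⟩ := zero n β g hn
    obtain ⟨-, b1, -, b2, b3, b4⟩ := a2 1 _ le_rfl ((a1 _).2 rfl)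
    exact ⟨b2, b3, fun t ht => ⟨b1 t ht, fun ε hε => (b4 ε hε).1 t ht⟩⟩
  obtain ⟨a1, a2, -, a3⟩ := one β h0
  simp only [one_div (gap _)]
  refine ⟨a1, a2, fun h => ?_, a3, fun h ε η e0 e1 hη => ?_⟩
  · obtain ⟨C, hC, h2⟩ := (two 1 β (1 / 4) le_rfl h0 (by norm_num) (by norm_num)).2.1 h
    refine ⟨C, hC, fun η hη => P150.MainThm.whp_mono (h2 η hη) ?_⟩
    filter_upwards [eventually_gt_atTop 0] with n hn g hg
    have h3 := hg _ (((zero n β g hn).1 _).2 rfl)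
    exact ⟨h3 _ (by simp), h3 _ (by simp)⟩
  · simp only [tmix_eq, heat_eq]
    exact P150.Cut.cutoff h0 h e0 e1 hη

end Vale.Agent.Results.P150.AllBetaCutoff
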